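import Vale.Agent.P058.Field

namespace Vale.Agent.Results.P058.Criterion

open Vale.Agent.P058

theorem result :
    (∀ (d : ℕ) (A : Set (EuclideanSpace ℝ (Fin d))), A.Finite → A.Nonempty →
      ∀ F : Subfield ℝ, (∀ x ∈ A, ∀ j : Fin d, x j ∈ F) →
        (IsRamsey A ↔ TensorCondition A F)) ∧
    (∀ (d : ℕ) (A : Set (EuclideanSpace ℝ (Fin d))), A.Finite → A.Nonempty →
      IsSubtransitive A → IsRamsey A) :=
  ⟨fun _ A hA _ F hF => ramsey_iff A hA F hF, fun _ A hA _ h => ramsey_of_subtransitive A hA h⟩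

end Vale.Agent.Results.P058.Criterion
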