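import Vale.Agent.P058.Kite

namespace Vale.Agent.Results.P058.Main

open Vale.Agent.P058

theorem result :
    (∀ (d : ℕ) (A : Set (EuclideanSpace ℝ (Fin d))), A.Finite → A.Nonempty →
      ∀ F : Subfield ℝ, (∀ x ∈ A, ∀ j : Fin d, x j ∈ F) →
        (IsRamsey A ↔ TensorCondition A F)) ∧
    (∀ (d : ℕ) (A : Set (EuclideanSpace ℝ (Fin d))), A.Finite → A.Nonempty →
      IsSubtransitive A → IsRamsey A) ∧
    (∀ (d : ℕ) (A : Set (EuclideanSpace ℝ (Fin d))), A.Finite → A.Nonempty → A.ncard ≤ 5 →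
      IsSpherical A → IsRamsey A) ∧
    (∀ a : ℝ, |a| < 1 → Transcendental ℚ a →
      IsRamsey (kite a) ∧ ¬ IsSubtransitive (kite a)) ∧
    ¬ (∀ (d : ℕ) (A : Set (EuclideanSpace ℝ (Fin d))), A.Finite → A.Nonempty →
      (IsRamsey A ↔ IsSubtransitive A)) := by
  refine ⟨fun _ A hA _ F hF => ramsey_iff A hA F hF,
    fun _ A hA _ h => ramsey_of_subtransitive A hA h,
    fun _ A hA _ h5 hs => ramsey_of_five A hA h5 hs,
    fun a ha ht => ⟨kite_ramsey ha, kite_not_subtransitive ha ht⟩, fun h => ?_⟩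
  obtain ⟨a, ha, ht⟩ := exists_transc
  exact kite_not_subtransitive ha ht
    ((h 2 (kite a) (kite_finite a) ⟨_, Set.mem_insert _ _⟩).1 (kite_ramsey ha))

end Vale.Agent.Results.P058.Main
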